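import Mathlib

/-!
P130H: definitions for the construction of a transformation with simple Lebesgue spectrum.
-/

namespace Vale.Agent.P130H

open MeasureTheory Filter Topology
open scoped ENNReal ComplexConjugate

/-- The circle. -/
abbrev Ci : Type := AddCircle (1 : ℝ)

/-- Haar probability measure of the circle. -/
noncomputable abbrev haar : Measure Ci := AddCircle.haarAddCircle

/-- `L²` of the circle. -/
noncomputable abbrev K2 : Type := Lp ℂ 2 haar

/-- Data of a rank one construction: `m k` copies of the tower of height `h k`, the `j`-th copy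
starting at the height `pos k j` of the tower `k + 1`. -/
structure RO where
  m : ℕ → ℕ
  h : ℕ → ℕ
  pos : ℕ → ℕ → ℕ
  two_le : ∀ k, 2 ≤ m k
  h_pos : 0 < h 0
  pos_zero : ∀ k, pos k 0 = 0
  step : ∀ k j, j + 1 < m k → pos k j + h k ≤ pos k (j + 1)
  last : ∀ k, pos k (m k - 1) + h k < h (k + 1)
  bdd : ∃ C : ℝ, ∀ k, (h k : ℝ) ≤ C * ∏ i ∈ Finset.range k, (m i : ℝ)

/-- The polynomial of stage `k`. -/
noncomputable def RO.p (R : RO) (k : ℕ) : C(Ci, ℂ) :=
  ((Real.sqrt (R.m k))⁻¹ : ℂ) • ∑ j ∈ Finset.range (R.m k), fourier (R.pos k j : ℤ)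

/-- The partial Riesz product. -/
noncomputable def RO.rho (R : RO) (k₀ k : ℕ) (x : Ci) : ℝ :=
  ∏ i ∈ Finset.Ico k₀ k, ‖R.p i x‖ ^ 2

/-- The part of the circle away from zero. -/
def Th (t : ℝ) : Set Ci := (fun s : ℝ => (s : Ci)) '' Set.Icc t (1 - t)

/-- Flatness of the Riesz product away from zero. -/
def RO.Flat (R : RO) : Prop :=
  ∀ t : ℝ, 0 < t → t < 1 / 2 → ∃ d : ℕ → ℝ, Summable d ∧ (∀ k, 0 ≤ d k) ∧
    ∀ k₀ k, k₀ ≤ k → ∫ x in Th t, R.rho k₀ k x * |‖R.p k x‖ ^ 2 - 1| ∂haar ≤ d k ^ 2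

/-- A system of vectors realising the rank one construction in a Hilbert space. -/
structure Sys (R : RO) {H : Type} [NormedAddCommGroup H] [InnerProductSpace ℂ H]
    (U : H ≃ₗᵢ[ℂ] H) (f : ℕ → H) : Prop where
  orth : ∀ k, Orthonormal ℂ (fun i : Fin (R.h k) => U^[(i : ℕ)] (f k))
  recur : ∀ k, f k = ((Real.sqrt (R.m k))⁻¹ : ℂ) • ∑ j ∈ Finset.range (R.m k), U^[R.pos k j] (f (k + 1))
  dense : (⨆ k, Submodule.span ℂ (Set.range (fun i : Fin (R.h k) => U^[(i : ℕ)] (f k)))).topologicalClosure = ⊤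

/-- `z / |z|`, and `1` at zero. -/
noncomputable def ph (z : ℂ) : ℂ := if z = 0 then 1 else z / (‖z‖ : ℂ)

/-- The unimodular functions. -/
noncomputable def RO.v (R : RO) : ℕ → Ci → ℂ
  | 0, _ => 1
  | k + 1, x => R.v k x * conj (ph (R.p k x))

end Vale.Agent.P130H
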