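import Vale.Agent.Lib.P130H.B.Fin
import Vale.Agent.Lib.P130B.R.TOut
import Vale.Agent.Lib.P130B.Out.FromBasis

/-!
P130H: from rank one data with flat polynomials to simple Lebesgue spectrum.
-/

namespace Vale.Agent.P130H

open MeasureTheory Filter Topology
open scoped ENNReal ComplexConjugate

/-- flatness with summable square roots of the errors -/
def FlatS (R : P130.RK) : Prop := ∃ ε : ℕ → ℝ, (∀ n, 0 ≤ ε n) ∧
  Summable (fun n => Real.sqrt (ε n)) ∧ ∀ l n, l ≤ n →
    ∫ t, P130.kap t * R.G l n t * |‖R.P n t‖ ^ 2 - 1| ∂P130.mT ≤ ε n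

/-- at least one spacer on top of the last copy -/
def StrictTop (R : P130.RK) : Prop := ∀ n, R.p n (R.m n - 1) + R.h n < R.h (n + 1)

/-- the data in the form of `P130H` -/
def toRO (R : P130.RK) (hs : StrictTop R) (hf : R.FinM) : RO where
  m := R.m
  h := R.h
  pos := R.p
  two_le := R.hm
  h_pos := by rw [R.h0]; exact Nat.one_pos
  pos_zero := R.p0
  step := R.hp1
  last := hs
  bdd := hf

theorem toRO_p (R : P130.RK) (hs : StrictTop R) (hf : R.FinM) (k : ℕ) (x : Ci) :
    (toRO R hs hf).p k x = R.P k x := by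
  unfold RO.p P130.RK.P
  rw [ContinuousMap.smul_apply, ContinuousMap.sum_apply, smul_eq_mul]
  rfl

theorem toRO_rho (R : P130.RK) (hs : StrictTop R) (hf : R.FinM) (k₀ k : ℕ) (x : Ci) :
    (toRO R hs hf).rho k₀ k x = R.G k₀ k x := by
  unfold RO.rho P130.RK.G
  refine Finset.prod_congr rfl fun i _ => ?_
  rw [toRO_p]

theorem kap_ge {t : ℝ} (ht : 0 < t) (ht2 : t < 1 / 2) (x : Ci) (hx : x ∈ Th t) :
    4 * Real.sin (Real.pi * t) ^ 2 ≤ P130.kap x := by
  obtain ⟨s, ⟨h1, h2⟩, rfl⟩ := hx
  have h3 : P130.kap (s : Ci) = 4 * Real.sin (Real.pi * s) ^ 2 := by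
    unfold P130.kap
    rw [fourier_coe_apply]
    have e1 : (2 * Real.pi * Complex.I * ((1 : ℤ) : ℂ) * (s : ℂ) / ((1 : ℝ) : ℂ)) =
        ((2 * (Real.pi * s) : ℝ) : ℂ) * Complex.I := by
      push_cast
      ring
    rw [e1, Complex.exp_mul_I, ← Complex.ofReal_cos, ← Complex.ofReal_sin,
      ← Complex.normSq_eq_norm_sq, Complex.normSq_apply]
    simp only [Complex.sub_re, Complex.add_re, Complex.ofReal_re, Complex.mul_re, Complex.I_re,
      mul_zero, Complex.ofReal_im, Complex.I_im, mul_one, sub_self, add_zero, Complex.one_re,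
      Complex.sub_im, Complex.add_im, Complex.mul_im, zero_add, Complex.one_im, sub_zero]
    rw [Real.cos_two_mul, Real.sin_two_mul]
    have h4 := Real.sin_sq_add_cos_sq (Real.pi * s)
    nlinarith [h4]
  rw [h3]
  have hpi := Real.pi_pos
  have h5 : Real.sin (Real.pi * t) ≤ Real.sin (Real.pi * s) := by
    rcases le_total s (1 / 2) with hs | hs
    · exact Real.sin_le_sin_of_le_of_le_pi_div_two (by nlinarith) (by nlinarith)
        (mul_le_mul_of_nonneg_left h1 hpi.le)
    · rw [← Real.sin_pi_sub (Real.pi * s)]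
      refine Real.sin_le_sin_of_le_of_le_pi_div_two (by nlinarith) (by nlinarith) ?_
      nlinarith
  have h6 : 0 ≤ Real.sin (Real.pi * t) :=
    (Real.sin_pos_of_pos_of_lt_pi (by positivity) (by nlinarith)).le
  have h7 : Real.sin (Real.pi * t) ^ 2 ≤ Real.sin (Real.pi * s) ^ 2 := pow_le_pow_left₀ h6 h5 2
  linarith

theorem toRO_flat (R : P130.RK) (hs : StrictTop R) (hf : R.FinM) (hF : FlatS R) :
    (toRO R hs hf).Flat := by
  obtain ⟨ε, hε0, hε, hF⟩ := hF
  intro t ht ht2
  have hpi := Real.pi_pos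
  have hsin : 0 < Real.sin (Real.pi * t) :=
    Real.sin_pos_of_pos_of_lt_pi (by positivity) (by nlinarith)
  set c : ℝ := 2 * Real.sin (Real.pi * t) with hc
  have hc0 : 0 < c := by positivity
  refine ⟨fun k => Real.sqrt (ε k) / c, hε.div_const c, fun k => by positivity, ?_⟩
  intro k₀ k hk
  have h1 := hF k₀ k hk
  have hcont : Continuous fun x : Ci => R.G k₀ k x * |‖R.P k x‖ ^ 2 - 1| := by
    have e1 : (fun x : Ci => R.G k₀ k x * |‖R.P k x‖ ^ 2 - 1|) = fun x : Ci =>
        (toRO R hs hf).rho k₀ k x * |‖(toRO R hs hf).p k x‖ ^ 2 - 1| := by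
      funext x
      rw [toRO_rho, toRO_p]
    rw [e1]
    unfold RO.rho
    fun_prop
  have hkap : Continuous P130.kap := by
    unfold P130.kap
    fun_prop
  have hnn : ∀ x : Ci, 0 ≤ R.G k₀ k x * |‖R.P k x‖ ^ 2 - 1| := by
    intro x
    refine mul_nonneg ?_ (abs_nonneg _)
    unfold P130.RK.G
    exact Finset.prod_nonneg fun i _ => sq_nonneg _
  have h2 : c ^ 2 * ∫ x in Th t, R.G k₀ k x * |‖R.P k x‖ ^ 2 - 1| ∂haar ≤ ε k := by
    rw [← integral_const_mul]
    calc ∫ x in Th t, c ^ 2 * (R.G k₀ k x * |‖R.P k x‖ ^ 2 - 1|) ∂haar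
        ≤ ∫ x in Th t, P130.kap x * (R.G k₀ k x * |‖R.P k x‖ ^ 2 - 1|) ∂haar := by
          refine setIntegral_mono_on ?_ ?_ (measurableSet_Th t) ?_
          · exact ((hcont.const_mul _).integrable_of_hasCompactSupport
              (HasCompactSupport.of_compactSpace _)).integrableOn
          · exact ((hkap.mul hcont).integrable_of_hasCompactSupport
              (HasCompactSupport.of_compactSpace _)).integrableOn
          · intro x hx
            refine mul_le_mul_of_nonneg_right ?_ (hnn x)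
            have := kap_ge ht ht2 x hx
            rw [hc]
            nlinarith
      _ ≤ ∫ x, P130.kap x * (R.G k₀ k x * |‖R.P k x‖ ^ 2 - 1|) ∂haar := by
          refine setIntegral_le_integral ?_ ?_
          · exact (hkap.mul hcont).integrable_of_hasCompactSupport
              (HasCompactSupport.of_compactSpace _)
          · refine Eventually.of_forall fun x => ?_
            refine mul_nonneg ?_ (hnn x)
            unfold P130.kap
            positivity
      _ ≤ ε k := by
          refine le_trans (le_of_eq ?_) h1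
          refine integral_congr_ae (Eventually.of_forall fun x => ?_)
          change P130.kap x * (R.G k₀ k x * |‖R.P k x‖ ^ 2 - 1|) =
            P130.kap x * R.G k₀ k x * |‖R.P k x‖ ^ 2 - 1|
          ring
  have h3 : ∫ x in Th t, (toRO R hs hf).rho k₀ k x * |‖(toRO R hs hf).p k x‖ ^ 2 - 1| ∂haar =
      ∫ x in Th t, R.G k₀ k x * |‖R.P k x‖ ^ 2 - 1| ∂haar := by
    refine integral_congr_ae (Eventually.of_forall fun x => ?_)
    change (toRO R hs hf).rho k₀ k x * |‖(toRO R hs hf).p k x‖ ^ 2 - 1| =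
      R.G k₀ k x * |‖R.P k x‖ ^ 2 - 1|
    rw [toRO_rho, toRO_p]
  rw [h3, div_pow, Real.sq_sqrt (hε0 k), le_div_iff₀ (by positivity)]
  linarith

theorem toRO_sys {R : P130.RK} (hs : StrictTop R) (hf : R.FinM) {H : Type} [NormedAddCommGroup H]
    [InnerProductSpace ℂ H] {W : H ≃ₗᵢ[ℂ] H} {e : ℕ → ℕ → H} {one : H} (S : P130.Sys R W e one) :
    Sys (toRO R hs hf) W (fun k => e k 0) := by
  have hlev : ∀ k i, i < R.h k → W^[i] (e k 0) = e k i := by
    intro k i
    induction i with
    | zero => intro _; rfl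
    | succ i ih =>
      intro hi
      rw [Function.iterate_succ_apply', ih (by omega), S.shift k i hi]
  have hle : ∀ k j, j < R.m k → R.p k j + R.h k ≤ R.h (k + 1) := by
    intro k j hj
    have hm := R.hm k
    have h1 : ∀ d, j + d < R.m k → R.p k j ≤ R.p k (j + d) := by
      intro d
      induction d with
      | zero => intro _; exact le_rfl
      | succ d ih =>
        intro hd
        have := R.hp1 k (j + d) (by omega)
        have := ih (by omega)
        have e1 : j + (d + 1) = j + d + 1 := by ring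
        rw [e1]
        omega
    have h2 := h1 (R.m k - 1 - j) (by omega)
    have e1 : j + (R.m k - 1 - j) = R.m k - 1 := by omega
    rw [e1] at h2
    have := R.hp2 k
    omega
  have hpos : ∀ k, 0 < R.h k := by
    intro k
    induction k with
    | zero => rw [R.h0]; exact Nat.one_pos
    | succ k ih =>
      have := R.hp2 k
      omega
  constructor
  · intro k
    change Orthonormal ℂ (fun i : Fin (R.h k) => W^[(i : ℕ)] (e k 0))
    rw [orthonormal_iff_ite]
    intro i j
    rw [hlev k i i.2, hlev k j j.2, S.orth k i j i.2 j.2]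
    exact if_congr Fin.ext_iff.symm rfl rfl
  · intro k
    change e k 0 = ((Real.sqrt (R.m k))⁻¹ : ℂ) •
      ∑ j ∈ Finset.range (R.m k), W^[R.p k j] (e (k + 1) 0)
    rw [S.ref k 0 (hpos k)]
    congr 1
    refine Finset.sum_congr rfl fun j hj => ?_
    have h1 := hle k j (Finset.mem_range.1 hj)
    rw [hlev (k + 1) (R.p k j) (by have := hpos k; omega), add_zero]
  · change (⨆ k, Submodule.span ℂ (Set.range
      (fun i : Fin (R.h k) => W^[(i : ℕ)] (e k 0)))).topologicalClosure = ⊤
    rw [eq_top_iff, ← S.dense]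
    refine Submodule.topologicalClosure_mono ?_
    rw [Submodule.span_le]
    rintro f ⟨n, k, hk, rfl⟩
    refine Submodule.mem_iSup_of_mem n (Submodule.subset_span ⟨⟨k, hk⟩, ?_⟩)
    exact hlev n k hk

/-- assembly: flat rank one data give a transformation with simple Lebesgue spectrum -/
theorem mainStmt_of_RK (h : ∃ R : P130.RK, StrictTop R ∧ R.FinM ∧ FlatS R) : P130B.MainStmt := by
  obtain ⟨R, hs, hf, hF⟩ := h
  obtain ⟨Y, i1, i2, μ, i3, i4, T, hT, W, e, one, S, hW, h3⟩ := P130.exists_sys R hf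
  have hone : one ≠ 0 := by
    intro h
    have := S.one_norm
    rw [h, norm_zero] at this
    norm_num at this
  obtain ⟨g, h0, ho, ht⟩ := exists_basis (toRO_flat R hs hf hF) (toRO_sys hs hf S) one S.W_one hone
  obtain ⟨V, hV, hr⟩ := P130B.exists_isometry_of_orbit W one g S.W_one h0 ho ht
  refine ⟨Y, i1, i2, μ, i3, i4, T, hT, V, fun u k hk => ?_, fun f => ?_⟩
  · rw [hV u k hk, hW]
  · rw [hr f, h3 f]

end Vale.Agent.P130H
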